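import Vale.Agent.P100.Sector.Basic

/-!
P100, the sector argument: the Pohozaev field off the origin and a radial cutoff of a slab.
-/

open MeasureTheory Metric Set Filter Topology

namespace Vale.Agent.P100.Sector

open Vale.Agent.P100.Sys
open Vale.Agent.P100.Wt (rw' zc rw'_eq contDiffOn_rw' pd_rw' pd_norm_sq)
open Vale.Agent.P100.Cmp (differentiableAt_pd)

variable {n : ℕ} {A B p q a₁ a₂ : ℝ} {u v : EuclideanSpace ℝ (Fin n) → ℝ}

/-- The `i`th component of the Pohozaev field. -/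
noncomputable def pohoZ (A B p q a₁ a₂ : ℝ) (u v : EuclideanSpace ℝ (Fin n) → ℝ) (i : Fin n)
    (x : EuclideanSpace ℝ (Fin n)) : ℝ :=
  (∑ j, x j * pd j u x) * pd i v x + (∑ j, x j * pd j v x) * pd i u x -
    x i * (∑ j, pd j u x * pd j v x) +
    x i * ((p + 1)⁻¹ * (rw' A x * v x ^ (p + 1)) + (q + 1)⁻¹ * (rw' B x * u x ^ (q + 1))) +
    a₁ * (v x * pd i u x) + a₂ * (u x * pd i v x)

lemma dens_eq (A B p q : ℝ) (u v : EuclideanSpace ℝ (Fin n) → ℝ) (x : EuclideanSpace ℝ (Fin n)) :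
    dens A B p q u v x = rw' A x * v x ^ (p + 1) + rw' B x * u x ^ (q + 1) := by
  simp only [dens, rw'_eq]

lemma contDiff_coord {k : WithTop ℕ∞} (i : Fin n) :
    ContDiff ℝ k fun x : EuclideanSpace ℝ (Fin n) => x i :=
  (EuclideanSpace.proj (𝕜 := ℝ) i).contDiff

lemma pd_coord (i j : Fin n) (x : EuclideanSpace ℝ (Fin n)) :
    pd i (fun y : EuclideanSpace ℝ (Fin n) => y j) x = if i = j then 1 else 0 := by
  show fderiv ℝ (EuclideanSpace.proj (𝕜 := ℝ) j) x _ = _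
  rw [(EuclideanSpace.proj (𝕜 := ℝ) j).fderiv]
  simp [eq_comm]

lemma contDiffOn_pohoZ (h : Sol n A B p q u v) (a₁ a₂ : ℝ) (i : Fin n) :
    ContDiffOn ℝ 1 (pohoZ A B p q a₁ a₂ u v i) {0}ᶜ := by
  have hΩ : IsOpen ({0}ᶜ : Set (EuclideanSpace ℝ (Fin n))) := isOpen_compl_singleton
  have hu := fun j => contDiffOn_pd (m := 1) hΩ h.smoothu (by norm_num) j
  have hv := fun j => contDiffOn_pd (m := 1) hΩ h.smoothv (by norm_num) j
  have hx := fun j : Fin n => (contDiff_coord (k := 1) j).contDiffOn (s := {0}ᶜ)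
  have u1 := h.smoothu.of_le (m := 1) (by norm_num)
  have v1 := h.smoothv.of_le (m := 1) (by norm_num)
  have hP : ContDiffOn ℝ 1 (fun x => rw' A x * v x ^ (p + 1)) {0}ᶜ :=
    (contDiffOn_rw' A).mul (v1.rpow_const_of_ne fun x _ => (h.posv x).ne')
  have hQ : ContDiffOn ℝ 1 (fun x => rw' B x * u x ^ (q + 1)) {0}ᶜ :=
    (contDiffOn_rw' B).mul (u1.rpow_const_of_ne fun x _ => (h.posu x).ne')
  exact ((((((ContDiffOn.sum fun j _ => (hx j).mul (hu j)).mul (hv i)).add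
    ((ContDiffOn.sum fun j _ => (hx j).mul (hv j)).mul (hu i))).sub
    ((hx i).mul (ContDiffOn.sum fun j _ => (hu j).mul (hv j)))).add
    ((hx i).mul ((contDiffOn_const.mul hP).add (contDiffOn_const.mul hQ)))).add
    (contDiffOn_const.mul (v1.mul (hu i)))).add (contDiffOn_const.mul (u1.mul (hv i)))

lemma pd_rpow {F : EuclideanSpace ℝ (Fin n) → ℝ} {x : EuclideanSpace ℝ (Fin n)}
    (hF : DifferentiableAt ℝ F x) (hpos : 0 < F x) (s : ℝ) (i : Fin n) :
    pd i (fun y => F y ^ s) x = s * F x ^ (s - 1) * pd i F x := by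
  rw [pd, (hF.hasFDerivAt.rpow_const (p := s) (Or.inl hpos.ne')).fderiv]
  simp [pd]

/-- The divergence of the field. -/
lemma sum_pd_pohoZ (hp : 0 < p) (hq : 0 < q) (h : Sol n A B p q u v)
    (ha : a₁ + a₂ = (n : ℝ) - 2) {x : EuclideanSpace ℝ (Fin n)} (hx : x ≠ 0) :
    ∑ i, pd i (pohoZ A B p q a₁ a₂ u v i) x =
      (((n : ℝ) + A) / (p + 1) - a₁) * (rw' A x * v x ^ (p + 1)) +
        (((n : ℝ) + B) / (q + 1) - a₂) * (rw' B x * u x ^ (q + 1)) := by
  have hΩ : IsOpen ({0}ᶜ : Set (EuclideanSpace ℝ (Fin n))) := isOpen_compl_singleton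
  have hu2 : ContDiffAt ℝ 2 u x := h.smoothu.contDiffAt (hΩ.mem_nhds hx)
  have hv2 : ContDiffAt ℝ 2 v x := h.smoothv.contDiffAt (hΩ.mem_nhds hx)
  have hu1 : DifferentiableAt ℝ u x := hu2.differentiableAt (by norm_num)
  have hv1 : DifferentiableAt ℝ v x := hv2.differentiableAt (by norm_num)
  have du := fun j => differentiableAt_pd hu2 j
  have dv := fun j => differentiableAt_pd hv2 j
  have dx := fun j : Fin n => (contDiff_coord (k := 1) j).differentiable (by norm_num) x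
  have dA : DifferentiableAt ℝ (rw' (n := n) A) x :=
    ((contDiffOn_rw' (k := 1) A).contDiffAt (hΩ.mem_nhds hx)).differentiableAt (by norm_num)
  have dB : DifferentiableAt ℝ (rw' (n := n) B) x :=
    ((contDiffOn_rw' (k := 1) B).contDiffAt (hΩ.mem_nhds hx)).differentiableAt (by norm_num)
  have dvp : DifferentiableAt ℝ (fun y => v y ^ (p + 1)) x :=
    hv1.rpow_const (Or.inl (h.posv x).ne')
  have duq : DifferentiableAt ℝ (fun y => u y ^ (q + 1)) x :=
    hu1.rpow_const (Or.inl (h.posu x).ne')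
  have e1 : ∀ (w : EuclideanSpace ℝ (Fin n) → ℝ), (∀ j, DifferentiableAt ℝ (pd j w) x) → ∀ i,
      pd i (fun y => ∑ j, y j * pd j w y) x = pd i w x + ∑ j, x j * pd i (pd j w) x := by
    intro w hw i
    rw [pd_sum _ (fun j _ => (dx j).fun_mul (hw j))]
    simp only [pd_mul (dx _) (hw _), pd_coord, Finset.sum_add_distrib]
    simp [add_comm]
  have dXu : DifferentiableAt ℝ (fun y => ∑ j, y j * pd j u y) x :=
    DifferentiableAt.fun_sum fun j _ => (dx j).mul (du j)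
  have dXv : DifferentiableAt ℝ (fun y => ∑ j, y j * pd j v y) x :=
    DifferentiableAt.fun_sum fun j _ => (dx j).mul (dv j)
  have dS : DifferentiableAt ℝ (fun y => ∑ j, pd j u y * pd j v y) x :=
    DifferentiableAt.fun_sum fun j _ => (du j).mul (dv j)
  have dP : DifferentiableAt ℝ (fun y => (p + 1)⁻¹ * (rw' A y * v y ^ (p + 1)) +
      (q + 1)⁻¹ * (rw' B y * u y ^ (q + 1))) x :=
    ((dA.mul dvp).const_mul _).add ((dB.mul duq).const_mul _)
  have e2 : ∀ i, pd i (fun y => (p + 1)⁻¹ * (rw' A y * v y ^ (p + 1)) +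
      (q + 1)⁻¹ * (rw' B y * u y ^ (q + 1))) x =
      (p + 1)⁻¹ * A * (rw' A x * v x ^ (p + 1)) * zc i x + rw' A x * v x ^ p * pd i v x +
      ((q + 1)⁻¹ * B * (rw' B x * u x ^ (q + 1)) * zc i x + rw' B x * u x ^ q * pd i u x) := by
    intro i
    rw [pd_add ((dA.fun_mul dvp).const_mul _) ((dB.fun_mul duq).const_mul _),
      pd_const_mul (dA.fun_mul dvp), pd_const_mul (dB.fun_mul duq),
      pd_mul dA dvp, pd_mul dB duq, pd_rw' A hx, pd_rw' B hx,
      pd_rpow hv1 (h.posv x), pd_rpow hu1 (h.posu x), add_sub_cancel_right, add_sub_cancel_right]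
    have : p + 1 ≠ 0 := by linarith
    have : q + 1 ≠ 0 := by linarith
    field_simp
    ring
  have e3 : ∀ i, pd i (pohoZ A B p q a₁ a₂ u v i) x =
      (pd i u x + ∑ j, x j * pd i (pd j u) x) * pd i v x + (∑ j, x j * pd j u x) * pd i (pd i v) x +
      ((pd i v x + ∑ j, x j * pd i (pd j v) x) * pd i u x +
        (∑ j, x j * pd j v x) * pd i (pd i u) x) -
      ((∑ j, pd j u x * pd j v x) +
        x i * ∑ j, (pd i (pd j u) x * pd j v x + pd j u x * pd i (pd j v) x)) +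
      (((p + 1)⁻¹ * (rw' A x * v x ^ (p + 1)) + (q + 1)⁻¹ * (rw' B x * u x ^ (q + 1))) +
        x i * ((p + 1)⁻¹ * A * (rw' A x * v x ^ (p + 1)) * zc i x + rw' A x * v x ^ p * pd i v x +
          ((q + 1)⁻¹ * B * (rw' B x * u x ^ (q + 1)) * zc i x + rw' B x * u x ^ q * pd i u x))) +
      a₁ * (pd i v x * pd i u x + v x * pd i (pd i u) x) +
      a₂ * (pd i u x * pd i v x + u x * pd i (pd i v) x) := by
    intro i
    unfold pohoZ
    rw [pd_add (((((dXu.fun_mul (dv i)).fun_add (dXv.fun_mul (du i))).fun_sub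
        ((dx i).fun_mul dS)).fun_add ((dx i).fun_mul dP)).fun_add
        ((hv1.fun_mul (du i)).const_mul a₁)) ((hu1.fun_mul (dv i)).const_mul a₂),
      pd_add ((((dXu.fun_mul (dv i)).fun_add (dXv.fun_mul (du i))).fun_sub
        ((dx i).fun_mul dS)).fun_add ((dx i).fun_mul dP)) ((hv1.fun_mul (du i)).const_mul a₁),
      pd_add (((dXu.fun_mul (dv i)).fun_add (dXv.fun_mul (du i))).fun_sub ((dx i).fun_mul dS))
        ((dx i).fun_mul dP),
      pd_sub ((dXu.fun_mul (dv i)).fun_add (dXv.fun_mul (du i))) ((dx i).fun_mul dS),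
      pd_add (dXu.fun_mul (dv i)) (dXv.fun_mul (du i)), pd_mul dXu (dv i), pd_mul dXv (du i),
      pd_mul (dx i) dS, pd_mul (dx i) dP, pd_const_mul (hv1.fun_mul (du i)),
      pd_const_mul (hu1.fun_mul (dv i)), pd_mul hv1 (du i), pd_mul hu1 (dv i), pd_coord, if_pos rfl,
      e1 u du i, e1 v dv i, e2 i, pd_sum _ (fun j _ => (du j).fun_mul (dv j))]
    simp only [pd_mul (du _) (dv _)]
    simp only [one_mul, Finset.sum_add_distrib, Finset.mul_sum, Finset.sum_mul]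
    ring
  have hx2 : ∑ i, x i * zc i x = 1 := by
    have h0 : ‖x‖ ^ 2 ≠ 0 := pow_ne_zero 2 (norm_ne_zero_iff.2 hx)
    simp only [zc, ← mul_assoc, ← Finset.sum_mul]
    rw [show ∑ i, x i * x i = ‖x‖ ^ 2 by rw [EuclideanSpace.norm_sq_eq]; simp [pow_two],
      mul_inv_cancel₀ h0]
  have hsym : ∀ (w z : EuclideanSpace ℝ (Fin n) → ℝ), ContDiffOn ℝ 2 w {0}ᶜ →
      ∑ i, (∑ j, x j * pd i (pd j w) x) * pd i z x = ∑ i, x i * ∑ j, pd i (pd j w) x * pd j z x := by
    intro w z hw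
    simp only [Finset.sum_mul, Finset.mul_sum]
    rw [Finset.sum_comm]
    refine Finset.sum_congr rfl fun i _ => Finset.sum_congr rfl fun j _ => ?_
    rw [pd_symm hΩ hw hx i j]; ring
  have hlu : ∑ i, pd i (pd i u) x = -(rw' A x * v x ^ p) := by
    rw [rw'_eq]; exact h.equ x hx
  have hlv : ∑ i, pd i (pd i v) x = -(rw' B x * u x ^ q) := by
    rw [rw'_eq]; exact h.eqv x hx
  have hvp : v x ^ (p + 1) = v x ^ p * v x := by rw [Real.rpow_add (h.posv x), Real.rpow_one]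
  have huq : u x ^ (q + 1) = u x ^ q * u x := by rw [Real.rpow_add (h.posu x), Real.rpow_one]
  set P := rw' A x * v x ^ (p + 1) with hP
  set Q := rw' B x * u x ^ (q + 1) with hQ
  set T1 := rw' A x * v x ^ p with hT1
  set T2 := rw' B x * u x ^ q with hT2
  set Xu := ∑ j, x j * pd j u x with hXu
  set Xv := ∑ j, x j * pd j v x with hXv
  set S := ∑ j, pd j u x * pd j v x with hS
  have e4 : ∀ i, pd i (pohoZ A B p q a₁ a₂ u v i) x =
      (2 + a₁ + a₂) * (pd i u x * pd i v x) + (∑ j, x j * pd i (pd j u) x) * pd i v x +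
      (∑ j, x j * pd i (pd j v) x) * pd i u x - x i * (∑ j, pd i (pd j u) x * pd j v x) -
      x i * (∑ j, pd i (pd j v) x * pd j u x) - S + ((p + 1)⁻¹ * P + (q + 1)⁻¹ * Q) +
      Xu * pd i (pd i v) x + Xv * pd i (pd i u) x +
      ((p + 1)⁻¹ * A * P + (q + 1)⁻¹ * B * Q) * (x i * zc i x) + T1 * (x i * pd i v x) +
      T2 * (x i * pd i u x) + (a₁ * v x) * pd i (pd i u) x + (a₂ * u x) * pd i (pd i v) x := by
    intro i
    rw [e3 i, Finset.sum_add_distrib,
      show ∑ j, pd j u x * pd i (pd j v) x = ∑ j, pd i (pd j v) x * pd j u x from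
        Finset.sum_congr rfl fun j _ => mul_comm _ _]
    ring
  have hs1 := hsym u v h.smoothu
  have hs2 := hsym v u h.smoothv
  simp only [e4, Finset.sum_add_distrib, Finset.sum_sub_distrib, ← Finset.mul_sum, Finset.sum_const,
    Finset.card_univ, Fintype.card_fin, nsmul_eq_mul, hs1, hs2, hlu, hlv, hx2, ← hS, ← hXu, ← hXv]
  have eP : P = T1 * v x := by rw [hP, hT1, hvp, mul_assoc]
  have eQ : Q = T2 * u x := by rw [hQ, hT2, huq, mul_assoc]
  rw [eP, eQ]
  simp only [div_eq_mul_inv]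
  linear_combination S * ha

lemma gradAbs_nonneg (w : EuclideanSpace ℝ (Fin n) → ℝ) (x : EuclideanSpace ℝ (Fin n)) :
    0 ≤ gradAbs w x := Finset.sum_nonneg fun _ _ => abs_nonneg _

lemma abs_pd_le (w : EuclideanSpace ℝ (Fin n) → ℝ) (x : EuclideanSpace ℝ (Fin n)) (i : Fin n) :
    |pd i w x| ≤ gradAbs w x :=
  Finset.single_le_sum (f := fun j => |pd j w x|) (fun _ _ => abs_nonneg _) (Finset.mem_univ i)

lemma dens_nonneg (h : Sol n A B p q u v) (x : EuclideanSpace ℝ (Fin n)) :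
    0 ≤ dens A B p q u v x :=
  add_nonneg (mul_nonneg (Real.rpow_nonneg (norm_nonneg _) _) (Real.rpow_nonneg (h.posv x).le _))
    (mul_nonneg (Real.rpow_nonneg (norm_nonneg _) _) (Real.rpow_nonneg (h.posu x).le _))

lemma bdry_nonneg (h : Sol n A B p q u v) (x : EuclideanSpace ℝ (Fin n)) :
    0 ≤ bdry A B p q u v x :=
  add_nonneg (add_nonneg (add_nonneg (mul_nonneg (gradAbs_nonneg _ _) (gradAbs_nonneg _ _))
    (mul_nonneg (h.posu x).le (gradAbs_nonneg _ _)))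
    (mul_nonneg (h.posv x).le (gradAbs_nonneg _ _))) (dens_nonneg h x)

/-- The size of the field. -/
lemma abs_pohoZ_le (hp : 0 < p) (hq : 0 < q) (h : Sol n A B p q u v) (a₁ a₂ : ℝ) (i : Fin n)
    (x : EuclideanSpace ℝ (Fin n)) :
    |pohoZ A B p q a₁ a₂ u v i x| ≤
      ‖x‖ * (3 * (gradAbs u x * gradAbs v x) + dens A B p q u v x) +
        |a₁| * (v x * gradAbs u x) + |a₂| * (u x * gradAbs v x) := by
  have hX : ∀ w, |∑ j, x j * pd j w x| ≤ ‖x‖ * gradAbs w x := fun w => by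
    refine (Finset.abs_sum_le_sum_abs _ _).trans ?_
    rw [gradAbs, Finset.mul_sum]
    refine Finset.sum_le_sum fun j _ => ?_
    rw [abs_mul]
    exact mul_le_mul_of_nonneg_right (PiLp.norm_apply_le x j) (abs_nonneg _)
  have hxi : |x i| ≤ ‖x‖ := PiLp.norm_apply_le x i
  have hS : |∑ j, pd j u x * pd j v x| ≤ gradAbs u x * gradAbs v x := by
    refine (Finset.abs_sum_le_sum_abs _ _).trans ?_
    conv_rhs => rw [gradAbs, Finset.sum_mul]
    refine Finset.sum_le_sum fun j _ => ?_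
    rw [abs_mul]
    exact mul_le_mul_of_nonneg_left (abs_pd_le v x j) (abs_nonneg _)
  have t1 : |(∑ j, x j * pd j u x) * pd i v x| ≤ ‖x‖ * (gradAbs u x * gradAbs v x) := by
    rw [abs_mul, ← mul_assoc]
    exact mul_le_mul (hX u) (abs_pd_le v x i) (abs_nonneg _)
      (mul_nonneg (norm_nonneg _) (gradAbs_nonneg _ _))
  have t2 : |(∑ j, x j * pd j v x) * pd i u x| ≤ ‖x‖ * (gradAbs u x * gradAbs v x) := by
    rw [abs_mul, mul_comm (gradAbs u x), ← mul_assoc]
    exact mul_le_mul (hX v) (abs_pd_le u x i) (abs_nonneg _)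
      (mul_nonneg (norm_nonneg _) (gradAbs_nonneg _ _))
  have t3 : |x i * ∑ j, pd j u x * pd j v x| ≤ ‖x‖ * (gradAbs u x * gradAbs v x) := by
    rw [abs_mul]
    exact mul_le_mul hxi hS (abs_nonneg _) (norm_nonneg _)
  have hP : 0 ≤ rw' A x * v x ^ (p + 1) := by
    rw [rw'_eq]; exact mul_nonneg (Real.rpow_nonneg (norm_nonneg _) _) (Real.rpow_nonneg (h.posv x).le _)
  have hQ : 0 ≤ rw' B x * u x ^ (q + 1) := by
    rw [rw'_eq]; exact mul_nonneg (Real.rpow_nonneg (norm_nonneg _) _) (Real.rpow_nonneg (h.posu x).le _)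
  have t4 : |x i * ((p + 1)⁻¹ * (rw' A x * v x ^ (p + 1)) +
      (q + 1)⁻¹ * (rw' B x * u x ^ (q + 1)))| ≤ ‖x‖ * dens A B p q u v x := by
    rw [abs_mul, dens_eq, abs_of_nonneg (add_nonneg (mul_nonneg (inv_nonneg.2 (by linarith)) hP)
      (mul_nonneg (inv_nonneg.2 (by linarith)) hQ))]
    exact mul_le_mul hxi (add_le_add (mul_le_of_le_one_left hP (inv_le_one_of_one_le₀ (by linarith)))
      (mul_le_of_le_one_left hQ (inv_le_one_of_one_le₀ (by linarith))))
      (add_nonneg (mul_nonneg (inv_nonneg.2 (by linarith)) hP)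
        (mul_nonneg (inv_nonneg.2 (by linarith)) hQ)) (norm_nonneg _)
  have t5 : |a₁ * (v x * pd i u x)| ≤ |a₁| * (v x * gradAbs u x) := by
    rw [abs_mul, abs_mul, abs_of_pos (h.posv x)]
    exact mul_le_mul_of_nonneg_left (mul_le_mul_of_nonneg_left (abs_pd_le u x i) (h.posv x).le)
      (abs_nonneg _)
  have t6 : |a₂ * (u x * pd i v x)| ≤ |a₂| * (u x * gradAbs v x) := by
    rw [abs_mul, abs_mul, abs_of_pos (h.posu x)]
    exact mul_le_mul_of_nonneg_left (mul_le_mul_of_nonneg_left (abs_pd_le v x i) (h.posu x).le)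
      (abs_nonneg _)
  rw [abs_le] at t1 t2 t3 t4 t5 t6 ⊢
  simp only [pohoZ]
  constructor <;> linarith [t1.1, t1.2, t2.1, t2.2, t3.1, t3.2, t4.1, t4.2, t5.1, t5.2, t6.1, t6.2]

/-- One inside the slab, zero outside. -/
noncomputable def slabCut (n : ℕ) (ρ δ : ℝ) (x : EuclideanSpace ℝ (Fin n)) : ℝ :=
  Real.smoothTransition (((ρ + δ) ^ 2 - ‖x‖ ^ 2) / (4 * ρ * δ))

lemma contDiff_slabCut {k : ℕ∞} (ρ δ : ℝ) : ContDiff ℝ k (slabCut n ρ δ) :=
  Real.smoothTransition.contDiff.comp ((contDiff_const.sub (contDiff_norm_sq ℝ)).div_const _)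

lemma slabCut_nonneg (ρ δ : ℝ) (x : EuclideanSpace ℝ (Fin n)) : 0 ≤ slabCut n ρ δ x :=
  Real.smoothTransition.nonneg _

lemma slabCut_eq_one {ρ δ : ℝ} (hδ : 0 < δ) (hδρ : δ < ρ) {x : EuclideanSpace ℝ (Fin n)}
    (hx : ‖x‖ ≤ ρ - δ) : slabCut n ρ δ x = 1 := by
  have hρ : 0 < ρ := hδ.trans hδρ
  refine Real.smoothTransition.one_of_one_le ?_
  rw [le_div_iff₀ (by positivity)]
  nlinarith [norm_nonneg x]

lemma slabCut_eq_zero {ρ δ : ℝ} (hδ : 0 < δ) (hρ : 0 < ρ) {x : EuclideanSpace ℝ (Fin n)}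
    (hx : ρ + δ ≤ ‖x‖) : slabCut n ρ δ x = 0 := by
  refine Real.smoothTransition.zero_of_nonpos (div_nonpos_of_nonpos_of_nonneg ?_ (by positivity))
  nlinarith [norm_nonneg x]

lemma hasCompactSupport_slabCut {ρ δ : ℝ} (hδ : 0 < δ) (hρ : 0 < ρ) :
    HasCompactSupport (slabCut n ρ δ) := by
  refine HasCompactSupport.of_support_subset_isCompact
    (isCompact_closedBall (0 : EuclideanSpace ℝ (Fin n)) (ρ + δ)) fun x hx => ?_
  rw [mem_closedBall_zero_iff]
  by_contra h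
  exact hx (slabCut_eq_zero hδ hρ (not_le.1 h).le)

/-- The derivative of the slab cutoff lives on the slab and is at most `M / δ`. -/
lemma exists_pd_slabCut (n : ℕ) :
    ∃ M : ℝ, 0 < M ∧ ∀ ρ δ : ℝ, 0 < δ → δ < ρ → ∀ (i : Fin n) (x : EuclideanSpace ℝ (Fin n)),
      |pd i (slabCut n ρ δ) x| ≤ M / δ ∧ (x ∉ slab n ρ δ → pd i (slabCut n ρ δ) x = 0) := by
  have hT : ContDiff ℝ 1 Real.smoothTransition := Real.smoothTransition.contDiff
  obtain ⟨M, hM⟩ := (isCompact_Icc (a := (0 : ℝ)) (b := 1)).exists_bound_of_continuousOn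
    (hT.continuous_deriv le_rfl).continuousOn
  refine ⟨max M 1, by positivity, fun ρ δ hδ hδρ i x => ?_⟩
  have hρ : 0 < ρ := hδ.trans hδρ
  have hout : x ∉ slab n ρ δ → pd i (slabCut n ρ δ) x = 0 := fun hx => by
    have hx' : ¬ (|‖x‖ - ρ| ≤ δ) := hx
    rw [abs_le, not_and_or, not_le, not_le] at hx'
    have e : ∃ a : ℝ, slabCut n ρ δ =ᶠ[𝓝 x] fun _ => a := by
      rcases hx' with h | h
      · exact ⟨1, ((continuous_norm.tendsto x).eventually
          (eventually_lt_nhds (show ‖x‖ < ρ - δ by linarith))).mono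
            fun y hy => slabCut_eq_one hδ hδρ hy.le⟩
      · exact ⟨0, ((continuous_norm.tendsto x).eventually
          (eventually_gt_nhds (show ρ + δ < ‖x‖ by linarith))).mono
            fun y hy => slabCut_eq_zero hδ hρ hy.le⟩
    obtain ⟨a, ha⟩ := e
    rw [pd_congr ha i]; simp [pd]
  refine ⟨?_, hout⟩
  by_cases hx : x ∈ slab n ρ δ
  swap
  · rw [hout hx, abs_zero]; positivity
  have hx2 := abs_le.1 (show |‖x‖ - ρ| ≤ δ from hx)
  set t := ((ρ + δ) ^ 2 - ‖x‖ ^ 2) / (4 * ρ * δ)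
  have ht : t ∈ Icc (0 : ℝ) 1 := by
    refine ⟨div_nonneg ?_ (by positivity), ?_⟩
    · nlinarith [norm_nonneg x]
    · rw [div_le_one (by positivity)]; nlinarith [norm_nonneg x]
  have hd := (hT.differentiable (by norm_num) t).hasDerivAt.comp_hasFDerivAt x
    (((hasFDerivAt_const ((ρ + δ) ^ 2) x).sub (hasStrictFDerivAt_norm_sq x).hasFDerivAt).mul_const
      (4 * ρ * δ)⁻¹)
  have e : pd i (slabCut n ρ δ) x = deriv Real.smoothTransition t * ((4 * ρ * δ)⁻¹ * -(2 * x i)) := by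
    show fderiv ℝ (Real.smoothTransition ∘ fun y : EuclideanSpace ℝ (Fin n) =>
      ((ρ + δ) ^ 2 - ‖y‖ ^ 2) * (4 * ρ * δ)⁻¹) x _ = _
    rw [show fderiv ℝ (Real.smoothTransition ∘ fun y : EuclideanSpace ℝ (Fin n) =>
      ((ρ + δ) ^ 2 - ‖y‖ ^ 2) * (4 * ρ * δ)⁻¹) x = _ from hd.fderiv]
    simp [EuclideanSpace.inner_single_right]
  rw [e, abs_mul, abs_mul, abs_neg, abs_mul, abs_two,
    abs_of_nonneg (inv_nonneg.2 (by positivity : (0 : ℝ) ≤ 4 * ρ * δ))]
  have h1 : |x i| ≤ 2 * ρ := (PiLp.norm_apply_le x i).trans (by linarith)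
  calc |deriv Real.smoothTransition t| * ((4 * ρ * δ)⁻¹ * (2 * |x i|))
      ≤ max M 1 * ((4 * ρ * δ)⁻¹ * (2 * (2 * ρ))) :=
        mul_le_mul ((hM t ht).trans (le_max_left _ _)) (mul_le_mul_of_nonneg_left (by linarith)
          (by positivity)) (by positivity) (by positivity)
    _ = max M 1 / δ := by field_simp; ring

end Vale.Agent.P100.Sector
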