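import Vale.Agent.P100.Sector.Poho.Field

/-!
P100, the sector argument: near the origin the energy density and the squared gradient are
integrable, so the cutoff at the origin costs nothing.
-/

open MeasureTheory Metric Set Filter Topology
open scoped ENNReal

namespace Vale.Agent.P100.Sector

open Vale.Agent.P100.Sys
open Vale.Agent.P100.Wt (rw' rw'_eq contDiffOn_rw')
open Vale.Agent.P100.Cmp (green_limit lap_mul continuousOn_lap continuous_lap)

variable {n : ℕ} {A B p q : ℝ} {u v : EuclideanSpace ℝ (Fin n) → ℝ}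

/-- Above minus the dimension a power of the norm is locally integrable. -/
lemma integrableOn_norm_rpow (hn : 1 ≤ n) {A : ℝ} (hA : -(n : ℝ) < A) (R : ℝ) :
    IntegrableOn (fun x : EuclideanSpace ℝ (Fin n) => ‖x‖ ^ A) (closedBall 0 R) := by
  suffices H : ∀ R, 0 < R → IntegrableOn (fun x : EuclideanSpace ℝ (Fin n) => ‖x‖ ^ A) (closedBall 0 R) by
    exact (H (max R 1) (by positivity)).mono_set (closedBall_subset_closedBall (le_max_left _ _))
  intro R hR
  obtain ⟨C, -, hk⟩ := exists_ball_kernel (n := n) hn (a := -A) (by linarith)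
  refine ⟨(measurable_norm.pow_const A).aestronglyMeasurable, ?_⟩
  rw [hasFiniteIntegral_iff_ofReal (Eventually.of_forall fun x => Real.rpow_nonneg (norm_nonneg _) _)]
  have h := hk 0 R hR
  simp only [sub_zero, neg_neg] at h
  exact h.trans_lt ENNReal.ofReal_lt_top

/-- A continuous factor does not spoil the integrability. -/
lemma integrableOn_norm_rpow_mul (hn : 1 ≤ n) {A : ℝ} (hA : -(n : ℝ) < A)
    {g : EuclideanSpace ℝ (Fin n) → ℝ} (hg : Continuous g) (R : ℝ) :
    IntegrableOn (fun x : EuclideanSpace ℝ (Fin n) => ‖x‖ ^ A * g x) (closedBall 0 R) :=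
  (integrableOn_norm_rpow hn hA R).mul_continuousOn hg.continuousOn (isCompact_closedBall _ _)

lemma integrableOn_dens' (hn : 3 ≤ n) (hA : -2 < A) (hB : -2 < B) (hp : 0 < p) (hq : 0 < q)
    (h : Sol n A B p q u v) (r : ℝ) : IntegrableOn (dens A B p q u v) (closedBall 0 r) := by
  have h3 : (3 : ℝ) ≤ n := by exact_mod_cast hn
  exact (integrableOn_norm_rpow_mul (by omega) (by linarith)
    (h.contv.rpow_const fun x => Or.inr (by linarith)) r).add
    (integrableOn_norm_rpow_mul (by omega) (by linarith)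
      (h.contu.rpow_const fun x => Or.inr (by linarith)) r)

lemma measurable_pd (i : Fin n) (w : EuclideanSpace ℝ (Fin n) → ℝ) : Measurable (pd i w) :=
  measurable_fderiv_apply_const ℝ w _

lemma measurable_gradAbs (w : EuclideanSpace ℝ (Fin n) → ℝ) : Measurable (gradAbs w) :=
  Finset.measurable_fun_sum _ fun i _ => (measurable_pd i w).abs

lemma continuousOn_gradAbs {w : EuclideanSpace ℝ (Fin n) → ℝ} (hw : ContDiffOn ℝ 2 w {0}ᶜ) :
    ContinuousOn (gradAbs w) {0}ᶜ :=
  continuousOn_finsetSum _ fun i _ =>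
    (continuousOn_pd isOpen_compl_singleton hw (by norm_num) i).abs

lemma ae_ne_zero (hn : 1 ≤ n) : ∀ᵐ x : EuclideanSpace ℝ (Fin n), x ≠ 0 :=
  compl_mem_ae_iff.2 (volume_singleton_zero hn 0)

/-- Sequences of radii tending to zero. -/
lemma tendsto_radii {c : ℝ} (hc : 0 < c) :
    Tendsto (fun k : ℕ => c * (1 / 2 : ℝ) ^ k) atTop (𝓝[>] 0) := by
  refine tendsto_nhdsWithin_iff.2 ⟨?_, Eventually.of_forall fun k => mul_pos hc (pow_pos (by norm_num) k)⟩
  simpa using (tendsto_pow_atTop_nhds_zero_of_lt_one (by norm_num : (0 : ℝ) ≤ 1 / 2)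
    (by norm_num)).const_mul c

lemma one_sub_cut_eventually_one {r : ℕ → ℝ} (hr : Tendsto r atTop (𝓝[>] 0))
    {x : EuclideanSpace ℝ (Fin n)} (hx : x ≠ 0) : ∀ᶠ k in atTop, cut n (r k) x = 0 := by
  obtain ⟨hr0, hrpos⟩ := tendsto_nhdsWithin_iff.1 hr
  filter_upwards [hr0.eventually (eventually_lt_nhds (half_pos (norm_pos_iff.2 hx))), hrpos]
    with k hk hk'
  exact cut_eq_zero hk' (by linarith)

/-- Finite Dirichlet energy across the origin. -/
lemma integrableOn_gradAbs_sq (hn : 3 ≤ n) (hA : -2 < A) (h : Sol n A B p q u v) (hp : 0 < p) :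
    IntegrableOn (fun x => gradAbs u x ^ 2) (closedBall 0 1) := by
  have h3 : (3 : ℝ) ≤ n := by exact_mod_cast hn
  have : Nonempty (Fin n) := ⟨⟨0, by omega⟩⟩
  set G := fun x => u x * u x with hG
  have hGd : ContDiffOn ℝ 2 G {0}ᶜ := h.smoothu.mul h.smoothu
  set φ := cut n 1 with hφ
  have hφd : ContDiff ℝ 2 φ := contDiff_cut
  have hsupp : ∀ x : EuclideanSpace ℝ (Fin n), x ∉ closedBall 0 2 → φ x = 0 := fun x hx => by
    rw [mem_closedBall_zero_iff, not_le] at hx
    exact cut_eq_zero one_pos (by linarith)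
  have hφc : HasCompactSupport φ :=
    HasCompactSupport.of_support_subset_isCompact (isCompact_closedBall 0 2) fun x hx => by
      by_contra hc
      exact hx (hsupp x hc)
  set r := fun k : ℕ => 1 * (1 / 2 : ℝ) ^ k
  have hr : Tendsto r atTop (𝓝[>] 0) := tendsto_radii one_pos
  have hlim := (green_limit (G := G) hn (h.contu.mul h.contu) hGd hφd hφc).comp hr
  set D := fun x => ∑ i, pd i u x ^ 2
  set W := fun x => (‖x‖ ^ A * v x ^ p) * u x * φ x
  have hW : Integrable W := by
    have : IntegrableOn W (closedBall 0 2) := by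
      refine (integrableOn_norm_rpow_mul (n := n) (by omega) (show -(n : ℝ) < A by linarith)
        ((h.contv.rpow_const fun x => Or.inr hp.le).mul (h.contu.mul hφd.continuous)) 2).congr_fun
        (fun x _ => ?_) measurableSet_closedBall
      simp [W, mul_assoc]
    exact this.integrable_of_forall_notMem_eq_zero fun x hx => by simp [W, hsupp x hx]
  have hW0 : ∀ x, 0 ≤ W x := fun x => mul_nonneg (mul_nonneg (mul_nonneg
    (Real.rpow_nonneg (norm_nonneg _) _) (Real.rpow_nonneg (h.posv x).le _)) (h.posu x).le) cut_nonneg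
  set F := fun (k : ℕ) x => D x * ((1 - cut n (r k) x) * φ x)
  have hF0 : ∀ k x, 0 ≤ F k x := fun k x => mul_nonneg (Finset.sum_nonneg fun i _ => sq_nonneg _)
    (mul_nonneg (sub_nonneg.2 cut_le_one) cut_nonneg)
  have hoff : ∀ (g : EuclideanSpace ℝ (Fin n) → ℝ), ContinuousOn g {0}ᶜ → ∀ k,
      Integrable fun x => g x * ((1 - cut n (r k) x) * φ x) := by
    intro g hg k
    have hrk : 0 < r k := by simp [r]
    refine integrable_of_support isOpen_compl_singleton
      (K := closedBall 0 2 \ ball 0 (r k)) ((isCompact_closedBall (0 : EuclideanSpace ℝ (Fin n)) 2).diff isOpen_ball)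
      (fun x hx h0 => hx.2 (by rw [mem_singleton_iff] at h0; simp [h0, hrk]))
      (hg.mul (((continuous_const.sub contDiff_cut.continuous).mul hφd.continuous).continuousOn))
      fun x hx => ?_
    rw [Set.mem_sdiff, not_and_or, not_not] at hx
    rcases hx with hx | hx
    · simp [hsupp x hx]
    · simp [cut_eq_one hrk (mem_ball_zero_iff.1 hx).le]
  have hFi : ∀ k, Integrable (F k) := hoff D
    (continuousOn_finsetSum _ fun i _ =>
      (continuousOn_pd isOpen_compl_singleton h.smoothu (by norm_num) i).pow 2)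
  have hFle : ∀ k, ∫ x, F k x ≤
      (1 / 2) * (∫ x, lap G x * ((1 - cut n (r k) x) * φ x)) + ∫ x, W x := by
    intro k
    rw [← integral_const_mul, ← integral_add ((hoff _ (continuousOn_lap hGd) k).const_mul _) hW]
    refine integral_mono (hFi k) (((hoff _ (continuousOn_lap hGd) k).const_mul _).add hW) fun x => ?_
    beta_reduce
    by_cases hx : x = 0
    · subst hx
      have hc : cut n (r k) (0 : EuclideanSpace ℝ (Fin n)) = 1 :=
        cut_eq_one (by simp [r]) (by simp [r])
      simp only [F, hc, sub_self, zero_mul, mul_zero, zero_add]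
      exact hW0 0
    · have hc := h.smoothu.contDiffAt (isOpen_compl_singleton.mem_nhds hx)
      have e : lap G x = 2 * D x - 2 * (u x * (‖x‖ ^ A * v x ^ p)) := by
        rw [hG, lap_mul hc hc, h.equ x hx]
        simp only [D, pow_two]
        ring
      have h1 : (1 - cut n (r k) x) * φ x ≤ φ x :=
        mul_le_of_le_one_left cut_nonneg (sub_le_self _ cut_nonneg)
      simp only [F, e, W]
      nlinarith [mul_le_mul_of_nonneg_left h1 (mul_nonneg (h.posu x).le
        (mul_nonneg (Real.rpow_nonneg (norm_nonneg x) A) (Real.rpow_nonneg (h.posv x).le p)))]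
  obtain ⟨c, hc⟩ := hlim.bddAbove_range
  have hbd : ∀ k, ∫ x, F k x ≤ (1 / 2) * c + ∫ x, W x := fun k =>
    (hFle k).trans (by have := hc ⟨k, rfl⟩; simp only [Function.comp] at this ⊢; linarith)
  have hDφ : Integrable fun x => D x * φ x := by
    have hm : Measurable fun x => D x * φ x :=
      (Finset.measurable_fun_sum _ fun i _ => (measurable_pd i u).pow_const 2).mul
        hφd.continuous.measurable
    refine ⟨hm.aestronglyMeasurable, ?_⟩
    rw [hasFiniteIntegral_iff_ofReal (Eventually.of_forall fun x =>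
      mul_nonneg (Finset.sum_nonneg fun i _ => sq_nonneg _) cut_nonneg)]
    have hae : ∀ᵐ x : EuclideanSpace ℝ (Fin n), Tendsto (fun k => ENNReal.ofReal (F k x)) atTop
        (𝓝 (ENNReal.ofReal (D x * φ x))) := by
      filter_upwards [(ae_ne_zero (n := n) (by omega))] with x hx
      refine tendsto_const_nhds.congr' ((one_sub_cut_eventually_one hr hx).mono fun k hk => ?_)
      simp [F, hk]
    calc ∫⁻ x, ENNReal.ofReal (D x * φ x)
        ≤ ∫⁻ x, liminf (fun k => ENNReal.ofReal (F k x)) atTop :=
          lintegral_mono_ae (hae.mono fun x hx => hx.liminf_eq.ge)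
      _ ≤ liminf (fun k => ∫⁻ x, ENNReal.ofReal (F k x)) atTop :=
          lintegral_liminf_le' fun k => (hFi k).aestronglyMeasurable.aemeasurable.ennreal_ofReal
      _ ≤ ENNReal.ofReal ((1 / 2) * c + ∫ x, W x) := by
          refine liminf_le_of_frequently_le' (Frequently.of_forall fun k => ?_)
          rw [← ofReal_integral_eq_lintegral_ofReal (hFi k) (Eventually.of_forall (hF0 k))]
          exact ENNReal.ofReal_le_ofReal (hbd k)
      _ < ⊤ := ENNReal.ofReal_lt_top
  refine Integrable.mono' ((hDφ.const_mul (n : ℝ)).restrict)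
    (((measurable_gradAbs u).pow_const 2).aestronglyMeasurable) ?_
  filter_upwards [ae_restrict_mem measurableSet_closedBall] with x hx
  rw [Real.norm_eq_abs, abs_of_nonneg (sq_nonneg _),
    show φ x = 1 from cut_eq_one one_pos (mem_closedBall_zero_iff.1 hx), mul_one]
  have := sq_sum_le_card_mul_sum_sq (s := (Finset.univ : Finset (Fin n))) (f := fun i => |pd i u x|)
  simpa [gradAbs, D, sq_abs] using this

/-- The cutoff at the origin costs nothing. -/
lemma tendsto_origin (hn : 3 ≤ n) (hA : -2 < A) (hB : -2 < B) (hp : 0 < p) (hq : 0 < q)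
    (h : Sol n A B p q u v) (a₁ a₂ : ℝ) {η : EuclideanSpace ℝ (Fin n) → ℝ}
    (hη1 : ∀ x, 0 ≤ η x ∧ η x ≤ 1) {r : ℕ → ℝ} (hr : Tendsto r atTop (𝓝[>] 0)) :
    Tendsto (fun k => ∑ i, ∫ x, |pohoZ A B p q a₁ a₂ u v i x * (η x * pd i (cut n (r k)) x)|)
      atTop (𝓝 0) := by
  obtain ⟨Bc, hBc, hcut⟩ := Cmp.cut_deriv_bounds n
  obtain ⟨Mu, hMu⟩ := (isCompact_closedBall (0 : EuclideanSpace ℝ (Fin n)) 1).exists_bound_of_continuousOn
    h.contu.continuousOn
  obtain ⟨Mv, hMv⟩ := (isCompact_closedBall (0 : EuclideanSpace ℝ (Fin n)) 1).exists_bound_of_continuousOn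
    h.contv.continuousOn
  have hMu0 : 0 ≤ Mu := (norm_nonneg _).trans (hMu 0 (by simp))
  have hMv0 : 0 ≤ Mv := (norm_nonneg _).trans (hMv 0 (by simp))
  set K := Bc * (3 + 1 + |a₁| * Mv + |a₂| * Mu) with hK
  set g := fun x => gradAbs u x ^ 2 + gradAbs v x ^ 2 + 2 * dens A B p q u v x
  have hg0 : ∀ x, 0 ≤ g x := fun x =>
    add_nonneg (add_nonneg (sq_nonneg _) (sq_nonneg _)) (mul_nonneg zero_le_two (dens_nonneg h x))
  have hgi : IntegrableOn g (closedBall 0 1) :=
    ((integrableOn_gradAbs_sq hn hA h hp).add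
      (integrableOn_gradAbs_sq (A := B) (B := A) (p := q) (q := p) hn hB h.swap hq)).add
      ((integrableOn_dens' hn hA hB hp hq h 1).const_mul 2)
  obtain ⟨hr0, hrpos⟩ := tendsto_nhdsWithin_iff.1 hr
  have hev : ∀ᶠ k in atTop, 0 < r k ∧ 2 * r k ≤ 1 :=
    (hrpos.and (hr0.eventually (eventually_le_nhds (by norm_num : (0 : ℝ) < 1 / 2)))).mono
      fun k hk => ⟨hk.1, by linarith [hk.2]⟩
  set V := fun k => volume.real (closedBall (0 : EuclideanSpace ℝ (Fin n)) (2 * r k))
  -- the integral of `g` over a shrinking ball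
  have hIg : Tendsto (fun k => ∫ x in closedBall 0 (2 * r k), g x) atTop (𝓝 0) := by
    have h0 : Tendsto (fun k => ∫ x in closedBall 0 1,
        (closedBall (0 : EuclideanSpace ℝ (Fin n)) (2 * r k)).indicator g x) atTop (𝓝 0) := by
      rw [show (0 : ℝ) = ∫ _ in closedBall (0 : EuclideanSpace ℝ (Fin n)) 1, (0 : ℝ) by simp]
      refine tendsto_integral_of_dominated_convergence g (fun k => hgi.aestronglyMeasurable.indicator
        measurableSet_closedBall) hgi (fun k => Eventually.of_forall fun x => ?_) ?_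
      · rw [Real.norm_eq_abs, abs_of_nonneg (indicator_nonneg (fun y _ => hg0 y) x)]
        exact indicator_le_self' (fun y _ => hg0 y) x
      · filter_upwards [ae_restrict_of_ae (ae_ne_zero (n := n) (by omega))] with x hx
        refine tendsto_const_nhds.congr'
          ((hr0.eventually (eventually_lt_nhds (half_pos (norm_pos_iff.2 hx)))).mono fun k hk => ?_)
        refine (indicator_of_notMem ?_ g).symm
        rw [mem_closedBall_zero_iff]; linarith
    refine h0.congr' (hev.mono fun k hk => ?_)
    rw [setIntegral_indicator measurableSet_closedBall,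
      inter_eq_right.2 (closedBall_subset_closedBall hk.2)]
  have hIr : Tendsto (fun k => V k / r k ^ 2) atTop (𝓝 0) := by
    have : Tendsto (fun k => 2 ^ n * ballVol n * r k ^ (n - 2)) atTop (𝓝 0) := by
      simpa [zero_pow (by omega : n - 2 ≠ 0)] using (hr0.pow (n - 2)).const_mul (2 ^ n * ballVol n)
    refine this.congr' (hev.mono fun k hk => ?_)
    simp only [V, Measure.addHaar_real_closedBall' volume (0 : EuclideanSpace ℝ (Fin n))
      (by linarith [hk.1] : 0 ≤ 2 * r k), finrank_euclideanSpace_fin]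
    rw [eq_div_iff (pow_ne_zero 2 hk.1.ne'), mul_assoc, ← pow_add, Nat.sub_add_cancel (by omega),
      mul_pow]
    show 2 ^ n * ballVol n * r k ^ n = 2 ^ n * r k ^ n * ballVol n
    ring
  have hlim : Tendsto (fun k => (n : ℝ) * (K * ((∫ x in closedBall 0 (2 * r k), g x) + V k / r k ^ 2)))
      atTop (𝓝 0) := by
    simpa using ((hIg.add hIr).const_mul K).const_mul (n : ℝ)
  refine squeeze_zero' (Eventually.of_forall fun k => Finset.sum_nonneg fun i _ =>
    integral_nonneg fun x => abs_nonneg _) (hev.mono fun k hk => ?_) hlim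
  refine (Finset.sum_le_sum fun i _ => (?_ : _ ≤ K * ((∫ x in closedBall 0 (2 * r k), g x) +
    V k / r k ^ 2))).trans_eq (by simp)
  obtain ⟨hk0, hk1⟩ := hk
  rw [← setIntegral_eq_integral_of_forall_compl_eq_zero (s := closedBall 0 (2 * r k)) fun x hx => by
    rw [mem_closedBall_zero_iff, not_le] at hx
    simp [(Cmp.pd_cut_eq_zero hk0 (Or.inr hx)).1 i]]
  have hsubs := closedBall_subset_closedBall (x := (0 : EuclideanSpace ℝ (Fin n))) hk1
  have hgk : IntegrableOn g (closedBall 0 (2 * r k)) := hgi.mono_set hsubs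
  have hconst : IntegrableOn (fun _ => 1 / r k ^ 2) (closedBall (0 : EuclideanSpace ℝ (Fin n)) (2 * r k)) :=
    integrableOn_const measure_closedBall_lt_top.ne
  calc ∫ x in closedBall 0 (2 * r k), |pohoZ A B p q a₁ a₂ u v i x * (η x * pd i (cut n (r k)) x)|
      ≤ ∫ x in closedBall 0 (2 * r k), K * (g x + 1 / r k ^ 2) := by
        refine integral_mono_of_nonneg (Eventually.of_forall fun x => abs_nonneg _)
          ((hgk.add hconst).const_mul K) ?_
        filter_upwards [ae_restrict_mem measurableSet_closedBall] with x hx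
        set R := r k
        have hx2 := mem_closedBall_zero_iff.1 hx
        have hu1 : u x ≤ Mu := le_trans (le_abs_self _) (hMu x (hsubs hx))
        have hv1 : v x ≤ Mv := le_trans (le_abs_self _) (hMv x (hsubs hx))
        have hU := gradAbs_nonneg u x
        have hV := gradAbs_nonneg v x
        have hd := dens_nonneg h x
        rw [abs_mul, abs_mul, abs_of_nonneg (hη1 x).1]
        refine (mul_le_mul (abs_pohoZ_le hp hq h a₁ a₂ i x) ((mul_le_of_le_one_left (abs_nonneg _)
          (hη1 x).2).trans ((hcut R hk0 x).1 i)) (mul_nonneg (hη1 x).1 (abs_nonneg _)) ?_).trans ?_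
        · have := mul_nonneg (norm_nonneg x) (by positivity : 0 ≤ 3 * (gradAbs u x * gradAbs v x) + dens A B p q u v x)
          have := mul_nonneg (abs_nonneg a₁) (mul_nonneg (h.posv x).le hU)
          have := mul_nonneg (abs_nonneg a₂) (mul_nonneg (h.posu x).le hV)
          linarith
        have amgm : ∀ G : ℝ, G / R ≤ G ^ 2 + 1 / R ^ 2 := fun G => by
          have e : G / R = G * (1 / R) := by ring
          have e2 : (1 / R) ^ 2 = 1 / R ^ 2 := by ring
          rw [e, ← e2]; nlinarith [sq_nonneg (G - 1 / R), sq_nonneg G, sq_nonneg (1 / R)]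
        have s1 : ‖x‖ * (3 * (gradAbs u x * gradAbs v x) + dens A B p q u v x) * (Bc / R) ≤
            Bc * (3 + 1) * (g x + 1 / R ^ 2) := by
          have : ‖x‖ * (Bc / R) ≤ 2 * Bc := by
            rw [← mul_div_assoc, div_le_iff₀ hk0]; nlinarith
          calc ‖x‖ * (3 * (gradAbs u x * gradAbs v x) + dens A B p q u v x) * (Bc / R)
              = (‖x‖ * (Bc / R)) * (3 * (gradAbs u x * gradAbs v x) + dens A B p q u v x) := by ring
            _ ≤ 2 * Bc * (3 * (gradAbs u x * gradAbs v x) + dens A B p q u v x) :=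
                mul_le_mul_of_nonneg_right this (by positivity)
            _ ≤ _ := by
              have : 0 ≤ 1 / R ^ 2 := by positivity
              simp only [g]
              nlinarith [sq_nonneg (gradAbs u x - gradAbs v x)]
        have s2 : |a₁| * (v x * gradAbs u x) * (Bc / R) ≤ Bc * (|a₁| * Mv) * (g x + 1 / R ^ 2) :=
          calc |a₁| * (v x * gradAbs u x) * (Bc / R) = Bc * (|a₁| * v x) * (gradAbs u x / R) := by ring
            _ ≤ Bc * (|a₁| * Mv) * (gradAbs u x ^ 2 + 1 / R ^ 2) :=
              mul_le_mul (mul_le_mul_of_nonneg_left (mul_le_mul_of_nonneg_left hv1 (abs_nonneg _))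
                hBc.le) (amgm _) (div_nonneg hU hk0.le) (by positivity)
            _ ≤ _ := by
              refine mul_le_mul_of_nonneg_left ?_ (by positivity)
              simp only [g]; nlinarith [sq_nonneg (gradAbs v x)]
        have s3 : |a₂| * (u x * gradAbs v x) * (Bc / R) ≤ Bc * (|a₂| * Mu) * (g x + 1 / R ^ 2) :=
          calc |a₂| * (u x * gradAbs v x) * (Bc / R) = Bc * (|a₂| * u x) * (gradAbs v x / R) := by ring
            _ ≤ Bc * (|a₂| * Mu) * (gradAbs v x ^ 2 + 1 / R ^ 2) :=
              mul_le_mul (mul_le_mul_of_nonneg_left (mul_le_mul_of_nonneg_left hu1 (abs_nonneg _))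
                hBc.le) (amgm _) (div_nonneg hV hk0.le) (by positivity)
            _ ≤ _ := by
              refine mul_le_mul_of_nonneg_left ?_ (by positivity)
              simp only [g]; nlinarith [sq_nonneg (gradAbs u x)]
        rw [hK]
        linarith
    _ = _ := by
        rw [integral_const_mul, integral_add hgk hconst, setIntegral_const, smul_eq_mul]
        simp only [V]
        ring

end Vale.Agent.P100.Sector
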